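import Mathlib
import Vale.Agent.Lib.P012.Param
import Vale.Agent.Lib.P012.Convert

namespace Vale.Agent.Results.P012.LogLogTimesLogLogLog

open Vale.Agent.Lib.P012

/-- `N(b) ≪ log log b · log log log b`: there are absolute constants `C` and `b₀` such that for
every `b ≥ b₀` and every `1 ≤ a < b` the fraction `a / b` is a sum of at most
`C · log log b · log log log b` distinct unit fractions with denominators at least `2`. -/
theorem result : ∃ C : ℝ, ∃ b₀ : ℕ, ∀ b : ℕ, b₀ ≤ b → ∀ a : ℕ, 1 ≤ a → a < b →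
    ∃ S : Finset ℕ, (∀ n ∈ S, 2 ≤ n) ∧ ∑ n ∈ S, (1 / (n : ℚ)) = (a : ℚ) / (b : ℚ) ∧
      (S.card : ℝ) ≤ C * Real.log (Real.log b) * Real.log (Real.log (Real.log b)) := by
  obtain ⟨C, b₀, h⟩ := convert_bound
  refine ⟨C, b₀, ?_⟩
  intro b hb a ha hab
  obtain ⟨L, hL, hbL, hbound⟩ := h b hb
  obtain ⟨S, hS1, hS2, hS3⟩ := main_nat L hL a b ha hab hbL
  refine ⟨S, hS2, hS3, le_trans ?_ hbound⟩
  exact_mod_cast hS1

end Vale.Agent.Results.P012.LogLogTimesLogLogLog
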