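import Mathlib
import Vale.Agent.Lib.P012.Param
import Vale.Agent.Lib.P012.Convert

namespace Vale.Agent.Results.P012.NbUpperBound

open Vale.Agent.Lib.P012

/-- `IsExpansion a b S`: the finite set `S` of distinct integers `n ≥ 2` satisfies
`∑_{n ∈ S} 1 / n = a / b`. -/
def IsExpansion (a b : ℕ) (S : Finset ℕ) : Prop :=
  (∀ n ∈ S, 2 ≤ n) ∧ ∑ n ∈ S, (1 / (n : ℚ)) = (a : ℚ) / (b : ℚ)

/-- `Nab a b` is the least number of distinct unit fractions summing to `a / b`. -/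
noncomputable def Nab (a b : ℕ) : ℕ := sInf {k | ∃ S : Finset ℕ, IsExpansion a b S ∧ S.card = k}

/-- `Nb b` is the maximum of `Nab a b` over `1 ≤ a < b`. -/
noncomputable def Nb (b : ℕ) : ℕ := (Finset.Ico 1 b).sup (fun a => Nab a b)

/-- `N(b) ≪ log log b · log log log b`; the first clause records that the sets defining `Nab`
are nonempty, so that the infimum is a genuine minimum. -/
theorem result :
    (∀ a b : ℕ, 1 ≤ a → a < b → ∃ S : Finset ℕ, IsExpansion a b S ∧ S.card = Nab a b) ∧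
    ∃ C : ℝ, ∃ b₀ : ℕ, ∀ b : ℕ, b₀ ≤ b →
      (Nb b : ℝ) ≤ C * Real.log (Real.log b) * Real.log (Real.log (Real.log b)) := by
  constructor
  · intro a b ha hab
    have hne : {k | ∃ S : Finset ℕ, IsExpansion a b S ∧ S.card = k}.Nonempty := by
      have hb1 : b ≤ 2 ^ (2 ^ (2 ^ (b + 4))) := by
        calc b ≤ b + 4 := by omega
          _ ≤ 2 ^ (b + 4) := Nat.lt_two_pow_self.le
          _ ≤ 2 ^ (2 ^ (b + 4)) := Nat.lt_two_pow_self.le
          _ ≤ 2 ^ (2 ^ (2 ^ (b + 4))) := Nat.lt_two_pow_self.le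
      obtain ⟨S, -, hS2, hS3⟩ := main_nat (b + 4) (by omega) a b ha hab hb1
      exact ⟨S.card, S, ⟨hS2, hS3⟩, rfl⟩
    exact Nat.sInf_mem hne
  · obtain ⟨C, b₀, h⟩ := convert_bound
    refine ⟨C, b₀, ?_⟩
    intro b hb
    obtain ⟨L, hL, hbL, hbound⟩ := h b hb
    refine le_trans ?_ hbound
    have : Nb b ≤ 6000 * (2 ^ L * L) := by
      unfold Nb
      apply Finset.sup_le
      intro a ha
      rw [Finset.mem_Ico] at ha
      obtain ⟨S, hS1, hS2, hS3⟩ := main_nat L hL a b ha.1 ha.2 hbL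
      exact le_trans (Nat.sInf_le ⟨S, ⟨hS2, hS3⟩, rfl⟩) hS1
    exact_mod_cast this

end Vale.Agent.Results.P012.NbUpperBound
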